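import Crest.Agent.R134.Fock
import Crest.Agent.R134.Ext
import Crest.Prelude.Def_GroupVNA

/-!
# Row 134: a generating free Haar family identifies the algebra (task R134-Grp)

PLANS.
* `exists_vn_group`: `exists_vn` with `Ω = δ 1`, `S = {λ g}`, partners the right translations
  `ltwoReindex (Equiv.mulRight g⁻¹)`, which commute with all `λ h` (and their adjoints `λ h⁻¹`), so lie in the
  commutant of `groupVNA G`.  `λ g (δ h) = δ (g h)`; span of the `δ g` is dense.
* `exists_iso`: `π = FreeGroup.lift (fun j => (⟨u j, hu j⟩ : unitary A))`, `ext_iso` with the submonoid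
  `{(lam g, π g)}`; `τ (π g) = 0` for `g ≠ 1` by `FH` applied to `g.toWord` (`FreeGroup.mk_toWord`,
  `FreeGroup.lift_mk`, `FreeGroup.isReduced_toWord`, `FreeGroup.toWord_eq_nil_iff`).
-/

set_option autoImplicit false

namespace Crest.Agent.R134

open Crest.Agent.R95 Crest.OpAlg Filter Topology
open scoped ComplexConjugate InnerProductSpace

namespace Gp

variable {G : Type}

/-- reindexing as a bounded operator -/
noncomputable def ri (e : Equiv.Perm G) : ltwo G →L[ℂ] ltwo G :=
  ((ltwoReindex e : ltwo G ≃ₗᵢ[ℂ] ltwo G) : ltwo G →L[ℂ] ltwo G)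

theorem ri_apply (e : Equiv.Perm G) (ξ : ltwo G) (h : G) : ri e ξ h = ξ (e h) := rfl

theorem star_ri (e : Equiv.Perm G) : star (ri e) = ri e.symm := by
  rw [ri, ContinuousLinearMap.star_eq_adjoint, LinearIsometryEquiv.adjoint_eq_symm]
  rfl

variable [Group G]

theorem lr_eq (g : G) : leftRegular g = ri (Equiv.mulLeft g⁻¹) := rfl

theorem lr_apply (g : G) (ξ : ltwo G) (h : G) : leftRegular g ξ h = ξ (g⁻¹ * h) := rfl

theorem lr_mul (g h : G) : leftRegular (g * h) = leftRegular g * leftRegular h := by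
  ext ξ k
  change ξ ((g * h)⁻¹ * k) = ξ (h⁻¹ * (g⁻¹ * k))
  rw [mul_inv_rev, mul_assoc]

theorem lr_one : leftRegular (1 : G) = 1 := by
  ext ξ k
  change ξ (1⁻¹ * k) = ξ k
  rw [inv_one, one_mul]

theorem star_lr (g : G) : star (leftRegular g) = leftRegular g⁻¹ := by
  rw [lr_eq, star_ri, lr_eq, Equiv.mulLeft_symm]

theorem lr_mem (g : G) : leftRegular g ∈ (groupVNA G).toStarSubalgebra := by
  change leftRegular g ∈ StarSubalgebra.centralizer ℂ _
  rw [StarSubalgebra.mem_centralizer_iff]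
  intro T hT
  have h1 := (StarSubalgebra.mem_centralizer_iff ℂ).1 hT _ ⟨g, rfl⟩
  have h2 := (StarSubalgebra.mem_centralizer_iff ℂ).1 (star_mem (s := StarSubalgebra.centralizer ℂ
    (Set.range (leftRegular (G := G)))) hT) _ ⟨g, rfl⟩
  exact ⟨h1.1.symm, h2.1.symm⟩

theorem ri_right_mem (g : G) : ri (Equiv.mulRight g) ∈ (groupVNA G).commutant := by
  have h : ∀ k : G, leftRegular k * ri (Equiv.mulRight g) = ri (Equiv.mulRight g) * leftRegular k := by
    intro k
    ext ξ h
    change ξ (k⁻¹ * h * g) = ξ (k⁻¹ * (h * g))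
    rw [mul_assoc]
  have h1 : ri (Equiv.mulRight g) ∈
      StarSubalgebra.centralizer ℂ (Set.range (leftRegular (G := G))) := by
    rw [StarSubalgebra.mem_centralizer_iff]
    rintro _ ⟨k, rfl⟩
    exact ⟨h k, by rw [star_lr]; exact h _⟩
  refine VonNeumannAlgebra.mem_commutant_iff.2 fun T hT => ?_
  exact ((StarSubalgebra.mem_centralizer_iff ℂ).1 hT _ h1).1.symm

/-- the left regular representation with values in the group von Neumann algebra -/
noncomputable def lam (G : Type) [Group G] : G →* (groupVNA G).toStarSubalgebra where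
  toFun g := ⟨leftRegular g, lr_mem g⟩
  map_one' := Subtype.ext lr_one
  map_mul' g h := Subtype.ext (lr_mul g h)

variable [DecidableEq G]

theorem lr_single (g : G) :
    leftRegular g (lp.single 2 (1 : G) (1 : ℂ) : ltwo G) = lp.single 2 g (1 : ℂ) := by
  ext h
  rw [lr_apply, lp.single_apply, lp.single_apply, Pi.single_apply, Pi.single_apply]
  simp only [inv_mul_eq_one, eq_comm]

theorem ri_single (g : G) :
    ri (Equiv.mulRight g⁻¹) (lp.single 2 (1 : G) (1 : ℂ) : ltwo G) = lp.single 2 g (1 : ℂ) := by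
  ext h
  rw [ri_apply, lp.single_apply, lp.single_apply, Pi.single_apply, Pi.single_apply]
  simp only [Equiv.coe_mulRight, mul_inv_eq_one]

end Gp

open Gp

theorem exists_vn_group (G : Type) [Group G] [DecidableEq G] :
    ∃ (σ : Tr (groupVNA G).toStarSubalgebra) (lam : G →* (groupVNA G).toStarSubalgebra),
      (∀ x, σ.φ x = groupTrace G x) ∧ VN σ ∧ Gen σ (Set.range lam) ∧
      (∀ g, star (lam g) = lam g⁻¹) ∧ ∀ g, g ≠ 1 → σ.φ (lam g) = 0 := by
  set Ω : ltwo G := lp.single 2 (1 : G) (1 : ℂ) with hΩ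
  have hΩ1 : ‖Ω‖ = 1 := by rw [hΩ, lp.norm_single (by norm_num), norm_one]
  let ev : (groupVNA G).toStarSubalgebra →ₗ[ℂ] ltwo G :=
    { toFun := fun a => (a : ltwo G →L[ℂ] ltwo G) Ω
      map_add' := fun _ _ => rfl
      map_smul' := fun _ _ => rfl }
  obtain ⟨σ, t1, -, t3, t4⟩ := exists_vn (groupVNA G) Ω hΩ1 (Set.range (lam G)) (by
      rintro _ ⟨g, rfl⟩
      refine ⟨ri (Equiv.mulRight g⁻¹), ri_right_mem _, ?_, ?_⟩
      · exact (ri_single g).trans (lr_single g).symm
      · change _ = star (leftRegular g) Ω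
        rw [star_lr, star_ri, Equiv.mulRight_symm]
        exact (ri_single g⁻¹).trans (lr_single g⁻¹).symm) (by
      intro ξ
      refine mem_closure_of_tendsto (lp.hasSum_single (p := 2) (by norm_num) ξ)
        (Eventually.of_forall fun s => ?_)
      have : ∑ i ∈ s, (lp.single 2 i (ξ i) : ltwo G) ∈
          (StarAlgebra.adjoin ℂ (Set.range (lam G))).toSubalgebra.toSubmodule.map ev := by
        refine sum_mem fun g _ => ?_
        have e : (lp.single 2 g (ξ g) : ltwo G) = ξ g • ev (lam G g) := by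
          change _ = ξ g • leftRegular g Ω
          rw [lr_single, ← lp.single_smul, smul_eq_mul, mul_one]
        rw [e]
        exact Submodule.smul_mem _ _
          ⟨lam G g, StarAlgebra.subset_adjoin ℂ _ ⟨g, rfl⟩, rfl⟩
      exact this)
  refine ⟨σ, lam G, t1, t3, t4, fun g => Subtype.ext (star_lr g), fun g hg => ?_⟩
  rw [t1]
  change ⟪Ω, leftRegular g Ω⟫_ℂ = 0
  rw [lr_single, hΩ, lp.inner_single_left, lp.single_apply, Pi.single_eq_of_ne hg.symm,
    inner_zero_right]

theorem exists_iso {J : Type} [DecidableEq J] {A : Type} [CStarAlgebra A] {τ : Tr A} (hτ : VN τ)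
    {u : J → A} (hu : ∀ j, u j ∈ unitary A) (hf : FH τ u) (hg : Gen τ (Set.range u)) :
    ∃ Φ : (groupVNA (FreeGroup J)).toStarSubalgebra ≃⋆ₐ[ℂ] A,
      ∀ x, τ.φ (Φ x) = groupTrace (FreeGroup J) x := by
  obtain ⟨σ, lam, h1, h2, h3, h4, h5⟩ := exists_vn_group (FreeGroup J)
  let π₀ : FreeGroup J →* unitary A := FreeGroup.lift fun j => ⟨u j, hu j⟩
  let π : FreeGroup J →* A := (unitary A).subtype.comp π₀
  have hπ : ∀ L, π (FreeGroup.mk L) = gw u L := fun L => by
    change (unitary A).subtype (FreeGroup.lift _ _) = _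
    rw [FreeGroup.lift_mk, map_list_prod, List.map_map, gw]
    congr 2
    funext p
    rcases p with ⟨j, _ | _⟩ <;> rfl
  have hs : ∀ g, star (π g) = π g⁻¹ := fun g => by
    change star (π₀ g : A) = (π₀ g⁻¹ : A)
    rw [map_inv]; rfl
  obtain ⟨θ, hθ, -⟩ := ext_iso h2 hτ (MonoidHom.mrange (lam.prod π)) (by
      rintro _ ⟨g, rfl⟩
      exact ⟨g⁻¹, Prod.ext (h4 g).symm (hs g).symm⟩) (by
      rintro _ ⟨g, rfl⟩
      change σ.φ (lam g) = τ.φ (π g)
      by_cases hg : g = 1
      · rw [hg, map_one lam, map_one π, σ.one, τ.one]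
      · rw [h5 g hg, ← FreeGroup.mk_toWord (x := g), hπ,
          hf _ (mt FreeGroup.toWord_eq_nil_iff.1 hg) FreeGroup.isReduced_toWord])
    (gen_of_subset h3 (by
      rintro _ ⟨g, rfl⟩
      exact mem_W ⟨_, ⟨g, rfl⟩, rfl⟩))
    (gen_of_subset hg (by
      rintro _ ⟨j, rfl⟩
      refine mem_W ⟨_, ⟨FreeGroup.of j, rfl⟩, ?_⟩
      change (π₀ (FreeGroup.of j) : A) = u j
      rw [FreeGroup.lift_apply_of]))
  exact ⟨θ, fun x => by rw [hθ, h1]⟩

end Crest.Agent.R134
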