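import Crest.Agent.R134.Baire
import Crest.Agent.R134.Grp

/-! # Row 134: the isomorphism -/

set_option autoImplicit false

namespace Crest.Agent.R134

open Crest.Agent.R95 Crest.OpAlg

theorem main (n : ℕ) (hn : 2 ≤ n) :
    ∃ Φ : (groupVNA (FreeGroup (Fin n))).toStarSubalgebra ≃⋆ₐ[ℂ]
      (groupVNA (FreeGroup (Fin (n + 1)))).toStarSubalgebra,
      ∀ x, groupTrace (FreeGroup (Fin (n + 1))) (Φ x : ltwo (FreeGroup (Fin (n + 1))) →L[ℂ] _) =
        groupTrace (FreeGroup (Fin n)) (x : ltwo (FreeGroup (Fin n)) →L[ℂ] _) := by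
  obtain ⟨A, B, _, _, τ, ι, ω, l, X, h⟩ := exists_model (Option (Fin n))
  obtain ⟨v, hv, hf, hg⟩ := h.exists_gen (j₁ := ⟨0, by omega⟩) (j₂ := ⟨1, by omega⟩) (by simp)
  obtain ⟨Φ, hΦ⟩ := exists_iso h.vn hv hf hg
  obtain ⟨Ψ, hΨ⟩ := exists_iso h.vn (u := (fun i => hu (X i)) ∘ finSuccEquiv n)
    (fun _ => hu_unitary _) (h.fh.comp (finSuccEquiv n).injective)
    (by rw [(finSuccEquiv n).surjective.range_comp]; exact h.gen_hu)
  refine ⟨Φ.trans Ψ.symm, fun x => ?_⟩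
  rw [← hΦ, ← hΨ]
  simp

end Crest.Agent.R134
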