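import Crest.Agent.R134.Cre
import Crest.Agent.R95.Conc
import Crest.Agent.R194.Hil

/-!
# Row 134: the Fock space model (task R134-Fock)

PLANS.
* `exists_vn`: let `φ x = ⟪Ω, x Ω⟫`.  For `s ∈ S`, `x ∈ M`: `φ (x s) = ⟪Ω, x d Ω⟫ = ⟪d⋆ Ω, x Ω⟫ = φ (s x)`, same
  for `star s` (with `star d`); so `φ (x a) = φ (a x)` for `a ∈ adjoin S`, `x ∈ M` (adjoin induction on
  "`∀ x, φ (x a) = φ (a x)` and the same for `star a`").  Then `‖a⋆ Ω‖ = ‖a Ω‖` on the adjoin and
  `|⟪a Ω, x Ω⟫| = |φ (a⋆ x)| = |⟪x⋆ Ω, a⋆ Ω⟫| ≤ ‖x⋆ Ω‖ ‖a Ω‖`, so `‖x Ω‖ ≤ ‖x⋆ Ω‖` by density, for all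
  `x ∈ M`; then `φ (x y) = φ (y x)` by approximating `y Ω` by `a Ω` (so `y⋆ Ω` by `a⋆ Ω`).  For `a` in the
  adjoin there is `d ∈ M'` with `d Ω = a Ω`, `d⋆ Ω = a⋆ Ω` (`a a' Ω = a d' Ω = d' d Ω`), so `x Ω = 0` gives
  `x = 0` on a dense set.  Use `exists_tr`, `isW_res` of R95 (`res M M = ⊤`) with `ξ = Pi.single 0 Ω`.
* `exists_model`: `H = lp (fun _ : List I => ℂ) 2` with basis `δ w` (`R194.stdBasis`), `l i (δ w) = δ (i :: w)`,
  `r i (δ w) = δ (w ++ [i])` (`R194.exists_synth_orth`), compute the adjoints on the basis.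
  `s i = l i + star (l i)` commutes with `d j = r j + star (r j)` (check on the basis), `s i Ω = d i Ω = δ [i]`.
  `M` = commutant of the `d j` (a `VonNeumannAlgebra` from `StarSubalgebra.centralizer`), `B = H →L[ℂ] H`,
  `ι` = inclusion, `ω T = ⟪Ω, T Ω⟫`.  `δ w ∈ adjoin (s) Ω` and `δ w ∈ M' Ω` by induction on the length
  (`s i (δ (j :: w)) = δ (i :: j :: w) + [i = j] δ w`).  `Cre τ ι ω ⊥ l X` is direct, `Cre.extend` gives the
  relations over `adjoin (X '' {i}ᶜ)`; to pass to `W`: `a ↦ a (δ w) = a d Ω = d (a Ω)` is `n2`-Lipschitz, so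
  `a ↦ ⟪δ v, (star (l i) * a * l i) (δ w)⟫ - τ a ⟪δ v, δ w⟫` and `a ↦ ω (T * star (l i) * a)` are too.
-/

set_option autoImplicit false

namespace Crest.Agent.R134

open Crest.Agent.R95 Filter Topology
open scoped ComplexConjugate InnerProductSpace

namespace Fk

section vn
variable {H : Type*} [NormedAddCommGroup H] [InnerProductSpace ℂ H] [CompleteSpace H]

theorem inner_star (T : H →L[ℂ] H) (v w : H) : ⟪star T v, w⟫_ℂ = ⟪v, T w⟫_ℂ := by
  rw [ContinuousLinearMap.star_eq_adjoint, ContinuousLinearMap.adjoint_inner_left]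

theorem comm_apply {M : VonNeumannAlgebra H} {d : H →L[ℂ] H} (hd : d ∈ M.commutant)
    (x : M.toStarSubalgebra) (v : H) : (x : H →L[ℂ] H) (d v) = d ((x : H →L[ℂ] H) v) :=
  congrArg (fun T : H →L[ℂ] H => T v) (VonNeumannAlgebra.mem_commutant_iff.1 hd _ x.2)

theorem exists_d {M : VonNeumannAlgebra H} {Ω : H} {S : Set M.toStarSubalgebra}
    (hd : ∀ s ∈ S, ∃ d ∈ M.commutant,
      d Ω = (s : H →L[ℂ] H) Ω ∧ (star d) Ω = (star (s : H →L[ℂ] H)) Ω)
    {a : M.toStarSubalgebra} (ha : a ∈ StarAlgebra.adjoin ℂ S) :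
    ∃ d ∈ M.commutant, d Ω = (a : H →L[ℂ] H) Ω ∧ (star d) Ω = (star (a : H →L[ℂ] H)) Ω := by
  induction ha using StarAlgebra.adjoin_induction with
  | mem x hx => exact hd x hx
  | algebraMap r =>
    exact ⟨algebraMap ℂ _ r, M.commutant.toStarSubalgebra.algebraMap_mem r, rfl, rfl⟩
  | add x y _ _ hx hy =>
    obtain ⟨d, hd, h1, h2⟩ := hx
    obtain ⟨d', hd', h1', h2'⟩ := hy
    refine ⟨d + d', add_mem hd hd', ?_, ?_⟩
    · change d Ω + d' Ω = (x : H →L[ℂ] H) Ω + (y : H →L[ℂ] H) Ω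
      rw [h1, h1']
    · change (star (d + d')) Ω = (star ((x : H →L[ℂ] H) + (y : H →L[ℂ] H))) Ω
      rw [star_add, star_add]
      change star d Ω + star d' Ω = star (x : H →L[ℂ] H) Ω + star (y : H →L[ℂ] H) Ω
      rw [h2, h2']
  | mul x y _ _ hx hy =>
    obtain ⟨d, hd, h1, h2⟩ := hx
    obtain ⟨d', hd', h1', h2'⟩ := hy
    refine ⟨d' * d, mul_mem hd' hd, ?_, ?_⟩
    · change d' (d Ω) = (x : H →L[ℂ] H) ((y : H →L[ℂ] H) Ω)
      rw [← h1', comm_apply hd', h1]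
    · change (star (d' * d)) Ω = (star ((x : H →L[ℂ] H) * (y : H →L[ℂ] H))) Ω
      rw [star_mul, star_mul]
      change star d (star d' Ω) = star (y : H →L[ℂ] H) (star (x : H →L[ℂ] H) Ω)
      rw [← h2, h2']
      exact (comm_apply (star_mem hd) (star y) Ω).symm
  | star x _ hx =>
    obtain ⟨d, hd, h1, h2⟩ := hx
    refine ⟨star d, star_mem hd, h2, ?_⟩
    change (star (star d)) Ω = (star (star (x : H →L[ℂ] H))) Ω
    rw [star_star, star_star, h1]

omit [CompleteSpace H] in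
theorem zero_of_clo {A : Type*} [CStarAlgebra A] {τ : Tr A} {F : Type*} [NormedAddCommGroup F]
    [NormedSpace ℂ F] (ev : A →ₗ[ℂ] H) (hev : ∀ x, τ.n2 x = ‖ev x‖) (f : H →L[ℂ] F)
    {N : StarSubalgebra ℂ A} (h : ∀ b ∈ N, f (ev b) = 0) {a : A} (ha : a ∈ clo τ N) :
    f (ev a) = 0 := by
  rw [← norm_le_zero_iff]
  refine le_of_forall_pos_le_add fun ε hε => ?_
  obtain ⟨b, hb, h1⟩ := ha (ε / (‖f‖ + 1)) (by positivity)
  rw [hev, lt_div_iff₀ (by positivity)] at h1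
  have h2 := f.le_opNorm (ev (a - b))
  rw [map_sub ev, map_sub f, h b hb, sub_zero, ← map_sub ev] at h2
  nlinarith [norm_nonneg (ev (a - b))]

end vn

end Fk

open Fk

theorem exists_vn {H : Type*} [NormedAddCommGroup H] [InnerProductSpace ℂ H] [CompleteSpace H]
    (M : VonNeumannAlgebra H) (Ω : H) (hΩ : ‖Ω‖ = 1) (S : Set M.toStarSubalgebra)
    (hd : ∀ s ∈ S, ∃ d ∈ M.commutant,
      d Ω = (s : H →L[ℂ] H) Ω ∧ (star d) Ω = (star (s : H →L[ℂ] H)) Ω)
    (hdense : Dense ((fun a : M.toStarSubalgebra => (a : H →L[ℂ] H) Ω) ''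
      (StarAlgebra.adjoin ℂ S : Set M.toStarSubalgebra))) :
    ∃ τ : Tr M.toStarSubalgebra, (∀ x, τ.φ x = ⟪Ω, (x : H →L[ℂ] H) Ω⟫_ℂ) ∧
      (∀ x, τ.n2 x = ‖(x : H →L[ℂ] H) Ω‖) ∧ VN τ ∧ Gen τ S := by
  have h1 : ∀ a ∈ StarAlgebra.adjoin ℂ S, ∀ x : M.toStarSubalgebra,
      ⟪Ω, (x : H →L[ℂ] H) ((a : H →L[ℂ] H) Ω)⟫_ℂ = ⟪Ω, (a : H →L[ℂ] H) ((x : H →L[ℂ] H) Ω)⟫_ℂ := by
    intro a ha x
    obtain ⟨d, hd, e1, e2⟩ := exists_d hd ha
    rw [← e1, comm_apply hd, ← inner_star d, e2, inner_star]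
  have h2 : ∀ a ∈ StarAlgebra.adjoin ℂ S, ‖star (a : H →L[ℂ] H) Ω‖ = ‖(a : H →L[ℂ] H) Ω‖ := by
    intro a ha
    have := h1 a ha (star a)
    change ⟪Ω, star (a : H →L[ℂ] H) _⟫_ℂ = ⟪Ω, (a : H →L[ℂ] H) (star (a : H →L[ℂ] H) Ω)⟫_ℂ at this
    rw [← inner_star (a : H →L[ℂ] H), ← inner_star (star (a : H →L[ℂ] H)), star_star,
      inner_self_eq_norm_sq_to_K, inner_self_eq_norm_sq_to_K] at this
    have h3 : ‖(a : H →L[ℂ] H) Ω‖ ^ 2 = ‖star (a : H →L[ℂ] H) Ω‖ ^ 2 := by exact_mod_cast this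
    exact ((pow_left_inj₀ (norm_nonneg _) (norm_nonneg _) two_ne_zero).1 h3).symm
  have h3 : ∀ x : M.toStarSubalgebra, ‖(x : H →L[ℂ] H) Ω‖ ≤ ‖star (x : H →L[ℂ] H) Ω‖ := by
    intro x
    have h4 : ∀ v, ‖⟪v, (x : H →L[ℂ] H) Ω⟫_ℂ‖ ≤ ‖star (x : H →L[ℂ] H) Ω‖ * ‖v‖ := by
      intro v
      refine Dense.induction (P := fun v => ‖⟪v, (x : H →L[ℂ] H) Ω⟫_ℂ‖ ≤
        ‖star (x : H →L[ℂ] H) Ω‖ * ‖v‖) hdense ?_ (isClosed_le (by fun_prop) (by fun_prop)) v
      · rintro _ ⟨a, ha, rfl⟩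
        have := h1 (star a) (star_mem ha) x
        change ⟪Ω, (x : H →L[ℂ] H) (star (a : H →L[ℂ] H) Ω)⟫_ℂ =
          ⟪Ω, star (a : H →L[ℂ] H) _⟫_ℂ at this
        rw [← inner_star (star (a : H →L[ℂ] H)), star_star, ← inner_star] at this
        simp only
        rw [← this, ← h2 a ha]
        exact norm_inner_le_norm _ _
    have h5 := h4 ((x : H →L[ℂ] H) Ω)
    rw [inner_self_eq_norm_sq_to_K, norm_pow, RCLike.norm_ofReal, abs_norm] at h5
    rcases (norm_nonneg ((x : H →L[ℂ] H) Ω)).eq_or_lt with h0 | h0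
    · rw [← h0]; exact norm_nonneg _
    · nlinarith
  have h4 : ∀ x y : M.toStarSubalgebra,
      ⟪Ω, (x : H →L[ℂ] H) ((y : H →L[ℂ] H) Ω)⟫_ℂ = ⟪Ω, (y : H →L[ℂ] H) ((x : H →L[ℂ] H) Ω)⟫_ℂ := by
    intro x y
    rw [← sub_eq_zero, ← norm_le_zero_iff]
    refine le_of_forall_pos_le_add fun ε hε => ?_
    set C := ‖star (x : H →L[ℂ] H) Ω‖ + ‖(x : H →L[ℂ] H) Ω‖ + 1 with hC
    have hC0 : 0 < C := by positivity
    obtain ⟨_, ⟨a, ha, rfl⟩, h5⟩ := Metric.mem_closure_iff.1 (hdense ((y : H →L[ℂ] H) Ω))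
      (ε / C) (by positivity)
    rw [dist_eq_norm, lt_div_iff₀ hC0] at h5
    have e : ⟪Ω, (x : H →L[ℂ] H) ((y : H →L[ℂ] H) Ω)⟫_ℂ -
        ⟪Ω, (y : H →L[ℂ] H) ((x : H →L[ℂ] H) Ω)⟫_ℂ =
        ⟪star (x : H →L[ℂ] H) Ω, ((y - a : M.toStarSubalgebra) : H →L[ℂ] H) Ω⟫_ℂ -
        ⟪star ((y - a : M.toStarSubalgebra) : H →L[ℂ] H) Ω, (x : H →L[ℂ] H) Ω⟫_ℂ := by
      rw [inner_star, inner_star]
      change _ = ⟪Ω, (x : H →L[ℂ] H) ((y : H →L[ℂ] H) Ω - (a : H →L[ℂ] H) Ω)⟫_ℂ -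
        ⟪Ω, (y : H →L[ℂ] H) ((x : H →L[ℂ] H) Ω) - (a : H →L[ℂ] H) ((x : H →L[ℂ] H) Ω)⟫_ℂ
      rw [map_sub, inner_sub_right, inner_sub_right, h1 a ha x]
      ring
    have h6 := h3 (star (y - a))
    change ‖star ((y - a : M.toStarSubalgebra) : H →L[ℂ] H) Ω‖ ≤
      ‖star (star ((y - a : M.toStarSubalgebra) : H →L[ℂ] H)) Ω‖ at h6
    rw [star_star] at h6
    have h7 : ‖((y - a : M.toStarSubalgebra) : H →L[ℂ] H) Ω‖ * C < ε := h5
    rw [e]
    refine (norm_sub_le _ _).trans ?_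
    have h8 := norm_inner_le_norm (𝕜 := ℂ) (star (x : H →L[ℂ] H) Ω)
      (((y - a : M.toStarSubalgebra) : H →L[ℂ] H) Ω)
    have h9 := norm_inner_le_norm (𝕜 := ℂ)
      (star ((y - a : M.toStarSubalgebra) : H →L[ℂ] H) Ω) ((x : H →L[ℂ] H) Ω)
    have h10 := mul_le_mul_of_nonneg_right h6 (norm_nonneg ((x : H →L[ℂ] H) Ω))
    rw [hC] at h7
    nlinarith [norm_nonneg (((y - a : M.toStarSubalgebra) : H →L[ℂ] H) Ω)]
  let ξ : ℕ → H := Pi.single 0 Ω
  have hv : ∀ T : H →L[ℂ] H, Crest.OpAlg.vectorState ξ T = ⟪Ω, T Ω⟫_ℂ := fun T => by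
    rw [Crest.OpAlg.vectorState, tsum_eq_single 0]
    · simp [ξ]
    · intro n hn; simp [ξ, Pi.single_eq_of_ne hn]
  have hn : ∀ T : H →L[ℂ] H, Crest.OpAlg.traceNormSq ξ T = ‖T Ω‖ ^ 2 := fun T => by
    rw [Crest.OpAlg.traceNormSq, tsum_eq_single 0]
    · simp [ξ]
    · intro n hn; simp [ξ, Pi.single_eq_of_ne hn]
  have hξ : Crest.OpAlg.IsFaithfulTracialVectorState M ξ := by
    refine ⟨?_, fun x hx y hy => ?_, fun x hx h => ?_⟩
    · have := hasSum_single (f := fun n => ‖ξ n‖ ^ 2) 0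
        (fun n hn => by simp [ξ, Pi.single_eq_of_ne hn])
      simpa [ξ, hΩ] using this
    · rw [hv, hv]
      exact h4 ⟨x, hx⟩ ⟨y, hy⟩
    · have h0 : x Ω = 0 := by simpa [ξ] using h 0
      ext v
      refine Dense.induction (P := fun v => x v = 0) hdense ?_
        (isClosed_eq x.continuous continuous_const) v
      · rintro _ ⟨a, ha, rfl⟩
        obtain ⟨d, hd, e1, -⟩ := exists_d hd ha
        simp only
        rw [← e1]
        refine (comm_apply hd ⟨x, hx⟩ Ω).trans ?_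
        change d (x Ω) = 0
        rw [h0, map_zero]
  obtain ⟨τ, t1, t2, t3⟩ := exists_tr hξ
  have t4 : ∀ x, τ.n2 x = ‖(x : H →L[ℂ] H) Ω‖ := fun x =>
    (pow_left_inj₀ (τ.n2_nonneg _) (norm_nonneg _) two_ne_zero).1 (by rw [t2, hn])
  refine ⟨τ, fun x => by rw [t1, hv], t4, ⟨t3, ?_⟩, fun x ε hε => ?_⟩
  · have := isW_res hξ t2 M
    rwa [show res M M = ⊤ from eq_top_iff.2 fun x _ => x.2] at this
  · obtain ⟨_, ⟨a, ha, rfl⟩, h5⟩ := Metric.mem_closure_iff.1 (hdense ((x : H →L[ℂ] H) Ω)) ε hε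
    refine ⟨a, ha, ?_⟩
    rw [t4]
    rwa [dist_eq_norm] at h5

namespace Fk

variable {I : Type}

/-- the full Fock space -/
noncomputable abbrev FS (I : Type) := lp (fun _ : List I => ℂ) 2

/-- its standard basis -/
noncomputable abbrev δ (I : Type) : HilbertBasis (List I) ℂ (FS I) := R194.stdBasis (List I)

theorem exists_shift {f : List I → List I} (hf : Function.Injective f) :
    ∃ T : FS I →L[ℂ] FS I, ∀ w, T (δ I w) = δ I (f w) :=
  (R194.exists_synth_orth (δ I) (fun w => δ I (f w)) 1 zero_le_one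
    (fun _ _ h => (δ I).orthonormal.2 (hf.ne h)) (fun _ => ((δ I).orthonormal.1 _).le)).imp
    fun _ h => h.1

open Classical in
theorem inner_δ (v w : List I) : ⟪δ I v, δ I w⟫_ℂ = if v = w then 1 else 0 :=
  orthonormal_iff_ite.1 (δ I).orthonormal v w

theorem inner_star' (T : FS I →L[ℂ] FS I) (v w : FS I) : ⟪v, star T w⟫_ℂ = ⟪T v, w⟫_ℂ := by
  rw [← inner_star, star_star]

theorem star_shift_of_mem {f : List I → List I} (hf : Function.Injective f)
    {T : FS I →L[ℂ] FS I} (hT : ∀ w, T (δ I w) = δ I (f w)) (w : List I) :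
    star T (δ I (f w)) = δ I w := by
  refine R194.vec_ext_basis (δ I) fun v => ?_
  rw [inner_star', hT, inner_δ, inner_δ]
  by_cases h : v = w
  · rw [if_pos h, if_pos (congrArg f h)]
  · rw [if_neg h, if_neg (hf.ne h)]

theorem star_shift_of_not_mem {f : List I → List I}
    {T : FS I →L[ℂ] FS I} (hT : ∀ w, T (δ I w) = δ I (f w)) {w : List I} (hw : ∀ v, f v ≠ w) :
    star T (δ I w) = 0 := by
  refine R194.vec_ext_basis (δ I) fun v => ?_
  rw [inner_star', hT, inner_δ, if_neg (hw v), inner_zero_right]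

end Fk

theorem exists_model (I : Type) :
    ∃ (A B : Type) (_ : CStarAlgebra A) (_ : CStarAlgebra B) (τ : Tr A) (ι : A →⋆ₐ[ℂ] B)
      (ω : B →ₗ[ℂ] ℂ) (l : I → B) (X : I → A), Model τ ι ω l X := by
  classical
  have il : ∀ i : I, Function.Injective (fun w : List I => i :: w) := fun i v w h => by
    simpa using h
  have ir : ∀ i : I, Function.Injective (fun w : List I => w ++ [i]) := fun i v w h => by
    simpa using h
  choose l hl using fun i : I => exists_shift (il i)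
  choose r hr using fun i : I => exists_shift (ir i)
  have l0 : ∀ i, star (l i) (δ I []) = 0 := fun i => star_shift_of_not_mem (hl i) (by simp)
  have r0 : ∀ i, star (r i) (δ I []) = 0 := fun i => star_shift_of_not_mem (hr i) (by simp)
  have l1 : ∀ i j w, star (l i) (δ I (j :: w)) = if i = j then δ I w else 0 := fun i j w => by
    split_ifs with h
    · subst h; exact star_shift_of_mem (il i) (hl i) w
    · exact star_shift_of_not_mem (hl i) (by simp [h])
  have r1 : ∀ i j w, star (r i) (δ I (w ++ [j])) = if i = j then δ I w else 0 := fun i j w => by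
    split_ifs with h
    · subst h; exact star_shift_of_mem (ir i) (hr i) w
    · exact star_shift_of_not_mem (hr i) (by simp [h])
  have c1 : ∀ i j, l i * r j = r j * l i := fun i j => R194.ext_basis (δ I) fun w => by
    change l i (r j _) = r j (l i _)
    rw [hr, hl, hl, hr]; rfl
  have c2 : ∀ i j, star (l i) * r j - r j * star (l i) = star (r j) * l i - l i * star (r j) :=
    fun i j => R194.ext_basis (δ I) fun w => by
    change star (l i) (r j _) - r j (star (l i) _) = star (r j) (l i _) - l i (star (r j) _)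
    rw [hr, hl]
    rcases eq_or_ne w [] with rfl | hw
    · rw [l0, r0, map_zero, map_zero, List.nil_append, l1, ← List.nil_append [i], r1]
      simp only [eq_comm]
    · have e1 : star (l i) (δ I (w ++ [j])) - r j (star (l i) (δ I w)) = 0 := by
        obtain ⟨k, w', rfl⟩ := List.exists_cons_of_ne_nil hw
        rw [List.cons_append, l1, l1]
        split_ifs
        · rw [hr, sub_self]
        · simp
      have e2 : star (r j) (δ I (i :: w)) - l i (star (r j) (δ I w)) = 0 := by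
        obtain ⟨w', k, rfl⟩ := (List.eq_nil_or_concat' w).resolve_left hw
        rw [← List.cons_append, r1, r1]
        split_ifs
        · rw [hl, sub_self]
        · simp
      rw [e1, e2]
  let d : I → FS I →L[ℂ] FS I := fun j => r j + star (r j)
  let s : I → FS I →L[ℂ] FS I := fun i => l i + star (l i)
  have hds : ∀ j, star (d j) = d j := fun j => by simp only [d, star_add, star_star, add_comm]
  have hss : ∀ j, star (s j) = s j := fun j => by simp only [s, star_add, star_star, add_comm]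
  have c3 : ∀ i j, d j * s i = s i * d j := fun i j => by
    have a1 := c1 i j
    have a2 := congrArg star (c1 i j)
    rw [star_mul, star_mul] at a2
    have a3 := c2 i j
    simp only [d, s, mul_add, add_mul]
    rw [a1, a2, ← sub_eq_zero, ← neg_eq_zero, ← sub_eq_zero.2 a3]
    abel
  obtain ⟨M, hM⟩ : ∃ M : VonNeumannAlgebra (FS I), ∀ T, T ∈ M ↔ ∀ j, d j * T = T * d j := by
    refine ⟨{ toStarSubalgebra := StarSubalgebra.centralizer ℂ (Set.range d)
              centralizer_centralizer' := by simp }, fun T => ?_⟩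
    change T ∈ StarSubalgebra.centralizer ℂ (Set.range d) ↔ _
    rw [StarSubalgebra.mem_centralizer_iff]
    constructor
    · exact fun h j => (h _ ⟨j, rfl⟩).1
    · rintro h _ ⟨j, rfl⟩
      exact ⟨h j, by rw [hds]; exact h j⟩
  let X : I → M.toStarSubalgebra := fun i => ⟨s i, (hM _).2 fun j => c3 i j⟩
  let Ω : FS I := δ I []
  have hd : ∀ x ∈ Set.range X, ∃ d ∈ M.commutant,
      d Ω = (x : FS I →L[ℂ] FS I) Ω ∧ (star d) Ω = (star (x : FS I →L[ℂ] FS I)) Ω := by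
    rintro _ ⟨i, rfl⟩
    have e : d i Ω = s i Ω := by
      change r i (δ I []) + star (r i) (δ I []) = l i (δ I []) + star (l i) (δ I [])
      rw [hr, hl, r0, l0]; rfl
    refine ⟨d i, VonNeumannAlgebra.mem_commutant_iff.2 fun T hT => ((hM T).1 hT i).symm, e, ?_⟩
    change star (d i) Ω = star (s i) Ω
    rw [hds, hss, e]
  have hcyc : ∀ w, ∃ a ∈ StarAlgebra.adjoin ℂ (Set.range X),
      (a : FS I →L[ℂ] FS I) Ω = δ I w := by
    have hX : ∀ i, X i ∈ StarAlgebra.adjoin ℂ (Set.range X) :=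
      fun i => StarAlgebra.subset_adjoin ℂ _ ⟨i, rfl⟩
    have : ∀ w, (∃ a ∈ StarAlgebra.adjoin ℂ (Set.range X), (a : FS I →L[ℂ] FS I) Ω = δ I w) ∧
        ∀ i, ∃ a ∈ StarAlgebra.adjoin ℂ (Set.range X),
          (a : FS I →L[ℂ] FS I) Ω = δ I (i :: w) := by
      intro w
      induction w with
      | nil =>
        refine ⟨⟨1, one_mem _, rfl⟩, fun i => ⟨X i, hX i, ?_⟩⟩
        change l i (δ I []) + star (l i) (δ I []) = _
        rw [hl, l0, add_zero]
      | cons j w ih =>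
        refine ⟨ih.2 j, fun i => ?_⟩
        obtain ⟨a, ha, ea⟩ := ih.1
        obtain ⟨b, hb, eb⟩ := ih.2 j
        refine ⟨X i * b - if i = j then a else 0,
          sub_mem (mul_mem (hX i) hb) (by split_ifs; exacts [ha, zero_mem _]), ?_⟩
        change l i ((b : FS I →L[ℂ] FS I) Ω) + star (l i) ((b : FS I →L[ℂ] FS I) Ω) -
          (((if i = j then a else 0 : M.toStarSubalgebra)) : FS I →L[ℂ] FS I) Ω = _
        rw [eb, hl, l1]
        split_ifs
        · rw [ea, add_sub_cancel_right]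
        · simp
    exact fun w => (this w).1
  let ev : M.toStarSubalgebra →ₗ[ℂ] FS I :=
    { toFun := fun a => (a : FS I →L[ℂ] FS I) Ω
      map_add' := fun _ _ => rfl
      map_smul' := fun _ _ => rfl }
  have hdense : Dense ((fun a : M.toStarSubalgebra => (a : FS I →L[ℂ] FS I) Ω) ''
      (StarAlgebra.adjoin ℂ (Set.range X) : Set M.toStarSubalgebra)) := by
    have h1 : Dense (Submodule.span ℂ (Set.range (δ I)) : Set (FS I)) := by
      rw [Submodule.dense_iff_topologicalClosure_eq_top]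
      exact (δ I).dense_span
    refine h1.mono ?_
    have : Submodule.span ℂ (Set.range (δ I)) ≤
        (StarAlgebra.adjoin ℂ (Set.range X)).toSubalgebra.toSubmodule.map ev := by
      rw [Submodule.span_le]
      rintro _ ⟨w, rfl⟩
      exact hcyc w
    exact this
  obtain ⟨τ, t1, t2, t3, t4⟩ := exists_vn M Ω ((δ I).orthonormal.1 _) (Set.range X) hd hdense
  let ω : (FS I →L[ℂ] FS I) →ₗ[ℂ] ℂ :=
    { toFun := fun T => ⟪Ω, T Ω⟫_ℂ
      map_add' := fun S T => inner_add_right _ _ _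
      map_smul' := fun c T => inner_smul_right _ _ _ }
  let ι : M.toStarSubalgebra →⋆ₐ[ℂ] (FS I →L[ℂ] FS I) := M.toStarSubalgebra.subtype
  have hrep : Rep τ ι ω := ⟨fun a => (t1 a).symm, fun T => by
    change ⟪Ω, star T Ω⟫_ℂ = conj ⟪Ω, T Ω⟫_ℂ
    rw [inner_star', inner_conj_symm]⟩
  have ll : ∀ i j, star (l i) * l j = if i = j then 1 else 0 := fun i j =>
    R194.ext_basis (δ I) fun w => by
      change star (l i) (l j _) = _
      rw [hl, l1]
      split_ifs <;> rfl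
  have hcre : Cre τ ι ω ⊥ l X := by
    refine ⟨fun i => ⟨?_, ?_, rfl⟩, ?_⟩
    · intro a ha
      obtain ⟨c, rfl⟩ := StarSubalgebra.mem_bot.1 ha
      rw [Algebra.algebraMap_eq_smul_one, map_smul, map_one, map_smul, τ.one, mul_smul_comm,
        smul_mul_assoc, mul_one, ll, if_pos rfl, smul_eq_mul, mul_one]
    · intro T a ha
      obtain ⟨c, rfl⟩ := StarSubalgebra.mem_bot.1 ha
      rw [Algebra.algebraMap_eq_smul_one, map_smul, map_one, mul_smul_comm, mul_one, map_smul]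
      change c • ⟪Ω, T (star (l i) (δ I []))⟫_ℂ = 0
      rw [l0, map_zero, inner_zero_right, smul_zero]
    · intro i j hij a ha
      obtain ⟨c, rfl⟩ := StarSubalgebra.mem_bot.1 ha
      rw [Algebra.algebraMap_eq_smul_one, map_smul, map_one, mul_smul_comm,
        smul_mul_assoc, mul_one, ll, if_neg hij, smul_zero]
  refine ⟨M.toStarSubalgebra, FS I →L[ℂ] FS I, inferInstance, inferInstance, τ, ι, ω, l, X,
    t3, hrep, fun i => ?_, t4⟩
  have h1 := (hcre.extend hrep i).mono (N' := StarAlgebra.adjoin ℂ (X '' {i}ᶜ))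
    (StarAlgebra.adjoin_mono Set.subset_union_right)
  refine ⟨fun a ha => R194.ext_basis (δ I) fun w => ?_, fun T a ha => ?_, rfl⟩
  · obtain ⟨b, hb, eb⟩ := hcyc (i :: w)
    obtain ⟨e, he, e1, -⟩ := exists_d hd hb
    let f : FS I →L[ℂ] FS I := star (l i) * e - (innerSL ℂ Ω).smulRight (δ I w)
    have hf : ∀ a : M.toStarSubalgebra, f (ev a) =
        (star (l i) * ι a * l i) (δ I w) - (τ.φ a • (1 : FS I →L[ℂ] FS I)) (δ I w) := fun a => by
      change star (l i) (e ((a : FS I →L[ℂ] FS I) Ω)) - ⟪Ω, (a : FS I →L[ℂ] FS I) Ω⟫_ℂ • δ I w =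
        star (l i) ((a : FS I →L[ℂ] FS I) (l i (δ I w))) - τ.φ a • δ I w
      rw [t1, hl, ← eb, ← e1, comm_apply he]
    have := zero_of_clo ev t2 f (fun b hb => by rw [hf, h1.rel b hb, sub_self]) ha
    rwa [hf, sub_eq_zero] at this
  · exact zero_of_clo ev t2 (innerSL ℂ Ω ∘L (T * star (l i))) (fun b hb => h1.vac T b hb) ha

end Crest.Agent.R134
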